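import Vale.Agent.P195.H231.Q.All
import Vale.Agent.P195L43.Main

/-!
# P195: the counterexample has only scalar endomorphisms
-/

open CategoryTheory CategoryTheory.Abelian

universe u

namespace Vale.Agent.N195

open P195Q P195Q.Van P195L43

variable (K : Type u) [Field K] [QPar K]

theorem end_MK (f : MK K →ₗ[RR K] MK K) : ∃ c : K, ∀ x, f x = c • x := by
  obtain ⟨a, b, e, rfl⟩ := (PRet_PE (K := K) (true, 5)).exists_map f
  obtain ⟨c, hc⟩ := end_JT (K := K) e.mem
  refine ⟨c, fun x => ?_⟩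
  apply Win.ext'
  change (a.prodMap b) ∘ₗ Win.toLin x = c • Win.toLin x
  rw [hc, LinearMap.smul_comp, LinearMap.id_comp]

theorem brick : ∃ (A : Type u) (_ : Ring A) (_ : Algebra K A) (M : Type u)
    (_ : AddCommGroup M) (_ : Module A M), Module.Finite K A ∧ Module.Finite A M ∧ AR A M ∧
      ¬ Module.Projective A M ∧ ∀ f : M →ₗ[A] M, ∃ c : K, ∀ m, f m = algebraMap K A c • m := by
  have h0 := finite_RR (K := K)
  have h1 := fun v => projective_PE (K := K) v
  have h2 := fun v => finite_PE (K := K) v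
  have h3 : Module.Finite (RR K) (P0 K) := inferInstance
  have h4 : Module.Projective (RR K) (P0 K) := Module.Projective.of_equiv
    (DirectSum.linearEquivFunOnFintype (RR K) Ten fun v => Md (PE K v.1))
  have h5 : ∀ f : P0 K →ₗ[RR K] Sm K, f = 0 := by
    intro f
    apply LinearMap.pi_ext'
    intro j
    rw [hom_PE_S j.1 (fun h => j.2 (by rw [h])) (f ∘ₗ _)]
    rfl
  have h6 : Orth (RR K) (Qm K) (P0 K) :=
    Orth.pi_right _ fun v => orth_Q_PE v.1 (fun h => v.2 (by rw [h]))
  have h7 := stepEHyp' (K := K) (orth_Q_PE (true, 5) (by decide))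
  have h8 := hom_PE_S (K := K) (true, 5) (by decide)
  obtain ⟨c1, c2, c3, c4, c5⟩ := stepE_conclusion (K := K) (R := RR K) (P0 := P0 K) (M := MK K)
    (S := Sm K) h5 h8 h7 (stepEHyp' h6) k0'
  refine ⟨EndOp (RR K) (P0 K), inferInstance, inferInstance, HM (RR K) (P0 K) (MK K),
    inferInstance, inferInstance, c1, c2, ar_iff.2 ⟨fun i hi => ?_, fun i hi => ?_⟩, c5,
    fun f => ?_⟩
  · obtain ⟨j, rfl⟩ : ∃ j, i = j + 1 := ⟨i - 1, by omega⟩
    exact c3 j
  · obtain ⟨j, rfl⟩ : ∃ j, i = j + 1 := ⟨i - 1, by omega⟩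
    exact c4 j
  · have hN : IsNoetherianRing (RR K) := isNoetherian_of_tower K inferInstance
    obtain ⟨g, rfl⟩ := (coverClass_stepE h5 h7).full (M := MK K)
      ⟨h2 _, orth_of_projective h8, orthPos_of_projective⟩ f
    obtain ⟨c, hc⟩ := end_MK K g
    refine ⟨c, fun m => HM.ext' (LinearMap.ext fun x => ?_)⟩
    change g (m.lin x) = m.lin (c • x)
    rw [hc, LinearMap.map_smul_of_tower]

end Vale.Agent.N195
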