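import Mathlib.Algebra.Category.ModuleCat.Ext.HasExt
import Mathlib.RingTheory.Artinian.Module

/-!
# P195: Artin algebras, vanishing of `Ext`, reflexive modules, Wakamatsu tilting modules
-/

open Function

universe u

namespace Vale.Agent.N195

variable (B : Type u) [Ring B] (T : Type u) [AddCommGroup T] [Module B T]

/-- `B` is finitely generated as a module over an Artinian subring of its centre. -/
def IsArtin : Prop :=
  ∃ S : Subring B, S ≤ Subring.center B ∧ IsArtinianRing S ∧ Module.Finite S B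

/-- `Ext^i_B (T, N) = 0` for all `i ≥ 1`. -/
def ExtZero (N : Type u) [AddCommGroup N] [Module B N] : Prop :=
  ∀ i : ℕ, 1 ≤ i →
    Subsingleton (CategoryTheory.Abelian.Ext (ModuleCat.of B T) (ModuleCat.of B N) i)

/-- The evaluation map from `T` to its double dual `Hom (Hom (T, B), B)` is bijective. -/
def Reflexive : Prop := ∀ φ : (T →ₗ[B] B) →ₗ[Bᵐᵒᵖ] B, ∃! y : T, ∀ μ, φ μ = μ y

/-- Wakamatsu tilting module: `T` is finitely generated, has no self-extensions over `B` and over
`S = End_B T`, and the natural map `B → End_S T` is bijective. -/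
def IsWakamatsu : Prop :=
  Module.Finite B T ∧ ExtZero B T T ∧ ExtZero (Module.End B T) T T ∧
    Bijective (Module.toModuleEnd (Module.End B T) (S := B) T)

/-- `X` is a direct summand of some `T ^ n`. -/
def InAdd (X : ModuleCat.{u} B) : Prop :=
  ∃ (n : ℕ) (i : X →ₗ[B] (Fin n → T)) (p : (Fin n → T) →ₗ[B] X), p ∘ₗ i = LinearMap.id

/-- There is an exact sequence `0 → B → U 0 → ⋯ → U n → 0` with all `U i` in `add T`. -/
def Coresolves : Prop :=
  ∃ (n : ℕ) (U : ℕ → ModuleCat.{u} B) (e : B →ₗ[B] U 0) (d : ∀ i, U i →ₗ[B] U (i + 1)),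
    Injective e ∧ Exact e (d 0) ∧ (∀ i, Exact (d i) (d (i + 1))) ∧ (∀ i, InAdd B T (U i)) ∧
      ∀ i, n < i → Subsingleton (U i)

end Vale.Agent.N195
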