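import Vale.Agent.N195.Waka

/-!
# P195: assembly
-/

universe u

namespace Vale.Agent.N195

open P195L43

theorem key (K : Type u) [Field K]
    (hK : ∀ F : Subfield K, Finite F → ¬ Algebra.IsAlgebraic F K) :
    (∃ (A : Type u) (_ : Ring A) (_ : Algebra K A), Module.Finite K A ∧
      (∃ (M : Type u) (_ : AddCommGroup M) (_ : Module A M), Module.Finite A M ∧
        ExtZero A M (M × A) ∧ ¬ Module.Projective A M ∧
        ∀ f : M →ₗ[A] M, ∃ c : K, ∀ m, f m = algebraMap K A c • m) ∧
      ∃ (N : Type u) (_ : AddCommGroup N) (_ : Module A N), Module.Finite A N ∧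
        ExtZero A N (N × A) ∧ ¬ Module.Projective A N ∧ Reflexive A N) ∧
    ∃ (B : Type u) (_ : Ring B) (_ : Algebra K B) (T : Type u) (_ : AddCommGroup T)
      (_ : Module B T), Module.Finite K B ∧ Module.Projective B T ∧ IsWakamatsu B T ∧
        ¬ Coresolves B T := by
  obtain ⟨t, h0, ht⟩ := P195.H231.exists_order hK
  obtain ⟨hq⟩ := P195.H231.exists_qpar h0 ht
  obtain ⟨A, _, _, M, _, _, h1, h2, h3, h4, h5⟩ := brick K
  have hN : IsNoetherianRing A := isNoetherian_of_tower K inferInstance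
  refine ⟨⟨A, _, _, h1, ⟨M, _, _, h2, h3, h4, h5⟩, exists_reflexive h3 h4⟩, ?_⟩
  let _ : Module K M := Module.compHom M (algebraMap K A)
  have : IsScalarTower K A M := IsScalarTower.of_algebraMap_smul fun _ _ => rfl
  exact ⟨Module.End A (M × A), inferInstance, inferInstance, M × A, inferInstance, inferInstance,
    P195Q.Van.finite_end, waka h3 h4⟩

theorem not_conj : ¬ ∀ (R : Type u) [Ring R] (M : Type u) [AddCommGroup M] [Module R M],
    IsArtin R → Module.Finite R M → ExtZero R M (M × R) → Module.Projective R M := fun h => by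
  obtain ⟨K, _, -, hK⟩ := P195.H231.exists_field.{u} 2 Nat.prime_two
  obtain ⟨⟨A, _, _, h1, ⟨M, _, _, h2, h3, h4, -⟩, -⟩, -⟩ := key K hK
  exact h4 (h A M (artin_of_finite K h1) h2 h3)

end Vale.Agent.N195
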