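import Vale.Agent.N195.Brick
import Vale.Agent.N195.Defs

/-!
# P195: syzygies of a counterexample are counterexamples, second syzygies are reflexive
-/

open CategoryTheory CategoryTheory.Abelian Function

universe u

namespace Vale.Agent.N195

open P195Q P195Q.Van P195L43

variable {R : Type u} [Ring R] {M N L : Type u} [AddCommGroup M] [Module R M] [AddCommGroup N]
  [Module R N] [AddCommGroup L] [Module R L]

theorem ar_iff' : AR R M ↔ OrthPos R M M ∧ OrthPos R M R := by
  rw [ar_iff]
  refine and_congr ⟨fun h i => h (i + 1) (by omega), fun h i hi => ?_⟩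
    ⟨fun h i => h (i + 1) (by omega), fun h i hi => ?_⟩
  all_goals
    obtain ⟨j, rfl⟩ : ∃ j, i = j + 1 := ⟨i - 1, by omega⟩
    exact h j

theorem orthPos_pow (h : OrthPos R M N) (n : ℕ) : OrthPos R M (Fin n → N) := by
  refine OrthPos.of_retract_sum_right (Finset.univ : Finset (Fin n)) (fun _ => N)
    (fun i => LinearMap.proj i) (fun i => LinearMap.single R (fun _ => N) i) ?_ fun _ => h
  apply LinearMap.ext
  intro x
  rw [LinearMap.sum_apply]
  exact LinearMap.sum_single_apply (fun _ => N) x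

theorem ar_syz {n : ℕ} {f : N →ₗ[R] (Fin n → R)} {g : (Fin n → R) →ₗ[R] M} (s : SES f g)
    (h : AR R M) :
    AR R N ∧ (Module.Finite R N → Module.Projective R N → Module.Projective R M) := by
  obtain ⟨h1, h2⟩ := ar_iff'.1 h
  refine ⟨ar_iff'.2 ⟨fun i => s.ez_left (orthPos_of_projective i) ?_,
    s.orthPos_left₁ orthPos_of_projective h2⟩, fun hf hp => ?_⟩
  · refine subsingleton_of_forall_eq 0 fun x => ?_
    obtain ⟨y, rfl⟩ := exists_of_push_left (A := ModuleCat.of R N)
      (B := ModuleCat.of R (Fin n → R)) (C := ModuleCat.of R M) s.exact s.inj s.surj x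
      ((orthPos_pow h2 n (i + 1)).elim _ _)
    rw [show y = 0 from (h1 i).elim _ _, conn'_zero]
  · obtain ⟨k, p, q, -, -, hpq⟩ := Module.Finite.exists_comp_eq_id_of_projective R N
    have h3 : OrthPos R M N := OrthPos.of_retract_sum_right (Finset.univ : Finset Unit)
      (fun _ => Fin k → R) (fun _ => q) (fun _ => p) (by simpa using hpq) fun _ => orthPos_pow h2 k
    exact proj_of_ext_zero (Z := ModuleCat.of R M) (P := ModuleCat.of R (Fin n → R))
      (Y := ModuleCat.of R N) f g ⟨s.inj, s.exact, s.surj⟩ (h3 0)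

theorem exists_syz [IsNoetherianRing R] [Module.Finite R M] (h : AR R M)
    (hp : ¬ Module.Projective R M) : ∃ (N : Type u) (_ : AddCommGroup N) (_ : Module R N) (n : ℕ)
      (f : N →ₗ[R] (Fin n → R)) (g : (Fin n → R) →ₗ[R] M), SES f g ∧ Module.Finite R N ∧ AR R N ∧
        ¬ Module.Projective R N := by
  obtain ⟨n, g, hg⟩ := Module.Finite.exists_fin' R M
  have s : SES (LinearMap.ker g).subtype g :=
    ⟨Subtype.val_injective, LinearMap.exact_subtype_ker_map g, hg⟩
  have hf : Module.Finite R (LinearMap.ker g) := inferInstance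
  exact ⟨_, _, _, n, _, g, s, hf, (ar_syz s h).1, fun h' => hp ((ar_syz s h).2 hf h')⟩

theorem reflexive_of {n m : ℕ} {f : N →ₗ[R] (Fin n → R)} {g : (Fin n → R) →ₗ[R] M} (s : SES f g)
    (j : M →ₗ[R] (Fin m → R)) (hj : Injective j) (h : EZ R 1 M R) : Reflexive R N := by
  intro φ
  let x : Fin n → R := fun k => φ (LinearMap.proj k ∘ₗ f)
  have key : ∀ l : (Fin n → R) →ₗ[R] R, φ (l ∘ₗ f) = l x := by
    intro l
    have h1 : l ∘ₗ f = ∑ k, MulOpposite.op (l (Pi.single k 1)) • (LinearMap.proj k ∘ₗ f) := by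
      apply LinearMap.ext
      intro y
      rw [LinearMap.sum_apply, LinearMap.comp_apply, LinearMap.pi_apply_eq_sum_univ]
      refine Finset.sum_congr rfl fun k _ => ?_
      simp only [LinearMap.smul_apply, LinearMap.comp_apply, LinearMap.proj_apply,
        MulOpposite.smul_eq_mul_unop, MulOpposite.unop_op, smul_eq_mul]
      congr 2
      funext t
      simp [Pi.single_apply, eq_comm]
    rw [h1, map_sum, LinearMap.pi_apply_eq_sum_univ]
    refine Finset.sum_congr rfl fun k _ => ?_
    rw [map_smul]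
    simp only [MulOpposite.smul_eq_mul_unop, MulOpposite.unop_op, smul_eq_mul, x]
    congr 2
    funext t
    simp [Pi.single_apply, eq_comm]
  have hx : g x = 0 := by
    apply hj
    rw [map_zero]
    funext k
    have h1 := key (LinearMap.proj k ∘ₗ j ∘ₗ g)
    rw [LinearMap.comp_assoc, LinearMap.comp_assoc, s.exact.linearMap_comp_eq_zero,
      LinearMap.comp_zero, LinearMap.comp_zero, map_zero] at h1
    exact h1.symm
  obtain ⟨y, hy⟩ := (s.exact x).1 hx
  refine ⟨y, fun μ => ?_, fun z hz => s.inj (funext fun k => ?_)⟩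
  · obtain ⟨l, rfl⟩ := s.extend h μ
    rw [key, ← hy]
    rfl
  · rw [hy]
    exact (hz (LinearMap.proj k ∘ₗ f)).symm

theorem exists_reflexive [IsNoetherianRing R] [Module.Finite R M] (h : AR R M)
    (hp : ¬ Module.Projective R M) : ∃ (N : Type u) (_ : AddCommGroup N) (_ : Module R N),
      Module.Finite R N ∧ AR R N ∧ ¬ Module.Projective R N ∧ Reflexive R N := by
  obtain ⟨N₁, _, _, m, j, _, s₁, _, a₁, p₁⟩ := exists_syz h hp
  obtain ⟨N₂, _, _, n, f, g, s₂, f₂, a₂, p₂⟩ := exists_syz a₁ p₁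
  exact ⟨N₂, _, _, f₂, a₂, p₂, reflexive_of s₂ j s₁.inj ((ar_iff'.1 a₁).2 0)⟩

end Vale.Agent.N195
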