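import Mathlib.Algebra.Category.ModuleCat.ChangeOfRings
import Vale.Agent.N195.Syz

/-!
# P195: a projective Wakamatsu tilting module that is not tilting
-/

open CategoryTheory CategoryTheory.Abelian Function

universe u

namespace Vale.Agent.N195

open P195Q P195Q.Van P195L43

/-- transfer of vanishing along a ring isomorphism -/
theorem extVanish_congr {A S T : Type u} [Ring A] [Ring S] (e : A ≃+* S) [AddCommGroup T]
    [Module A T] [Module S T] (h : ∀ (a : A) (t : T), e a • t = a • t) (H : OrthPos A T T) :
    ExtZero S T T := by
  intro i hi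
  obtain ⟨j, rfl⟩ : ∃ j, i = j + 1 := ⟨i - 1, by omega⟩
  let F := ModuleCat.restrictScalars.{u} e.toRingHom
  let X := F.obj (ModuleCat.of S T)
  let ε : T ≃ₗ[A] X :=
    { toFun := fun t => t
      invFun := fun t => t
      map_add' := fun _ _ => rfl
      map_smul' := fun a t => (h a t).symm
      left_inv := fun _ => rfl
      right_inv := fun _ => rfl }
  have h1 : EZ A (j + 1) X X := EZ.of_retract (P := T) ε.symm.toLinearMap ε.toLinearMap
    (by ext; simp) (H.congr_right ε j)
  exact (Equiv.ofBijective _
    (F.mapExt_bijective_of_preservesProjectiveObjects _ _ (j + 1))).subsingleton_congr.2 h1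

theorem proj_congr {A S T : Type u} [Ring A] [Ring S] (e : A ≃+* S) [AddCommGroup T]
    [Module A T] [Module S T] (h : ∀ (a : A) (t : T), e a • t = a • t)
    (H : Module.Projective S T) : Module.Projective A T := by
  have := RingHomInvPair.of_ringEquiv e.symm
  have := RingHomInvPair.of_ringEquiv_symm e.symm
  let ε : T ≃ₛₗ[(e.symm : S →+* A)] T :=
    { toFun := id
      invFun := id
      map_add' := fun _ _ => rfl
      map_smul' := fun s t => by
        change s • t = e.symm s • t
        rw [← h, e.apply_symm_apply]
      left_inv := fun _ => rfl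
      right_inv := fun _ => rfl }
  exact Module.Projective.of_equiv ε

section

variable {B T : Type u} [Ring B] [AddCommGroup T] [Module B T]

theorem InAdd.projective [Module.Projective B T] {X : ModuleCat.{u} B} (h : InAdd B T X) :
    Module.Projective B X := by
  obtain ⟨n, i, p, h⟩ := h
  have : Module.Projective B (Fin n → T) := Module.Projective.of_equiv
    (DirectSum.linearEquivFunOnFintype B (Fin n) fun _ => T)
  exact Module.Projective.of_split i p h

/-- an injective map whose cokernel embeds onto a projective module splits -/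
theorem split_of {X Y Z : Type u} [AddCommGroup X] [Module B X] [AddCommGroup Y] [Module B Y]
    [AddCommGroup Z] [Module B Z] {f : X →ₗ[B] Y} {g : Y →ₗ[B] Z} (hf : Injective f)
    (h : Exact f g) [Module.Projective B (LinearMap.range g)] :
    ∃ r : Y →ₗ[B] X, r ∘ₗ f = LinearMap.id := by
  have s : SES f g.rangeRestrict := ⟨hf, fun x => (Subtype.ext_iff).trans (h x),
    g.surjective_rangeRestrict⟩
  exact s.extend (orthPos_of_projective 0) LinearMap.id

theorem Coresolves.inAdd [Module.Projective B T] (h : Coresolves B T) :
    InAdd B T (ModuleCat.of B B) := by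
  obtain ⟨n, U, e, d, he, h0, h1, h2, h3⟩ := h
  have key : ∀ k i, n ≤ i + k → Module.Projective B (LinearMap.range (d i)) := by
    intro k
    induction k with
    | zero =>
      intro i hi
      have := h3 (i + 1) (by omega)
      infer_instance
    | succ k ih =>
      intro i hi
      have := ih (i + 1) (by omega)
      have := (h2 (i + 1)).projective
      obtain ⟨r, hr⟩ := split_of (f := (LinearMap.range (d i)).subtype) (g := d (i + 1))
        Subtype.val_injective (fun x => (h1 i x).trans
          ⟨fun hx => ⟨⟨x, hx⟩, rfl⟩, fun ⟨y, hy⟩ => hy ▸ y.2⟩)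
      exact Module.Projective.of_split _ r hr
  have := key n 0 (by omega)
  obtain ⟨r, hr⟩ := split_of he h0
  obtain ⟨m, i, p, hp⟩ := h2 0
  refine ⟨m, i ∘ₗ e, r ∘ₗ p, ?_⟩
  rw [LinearMap.comp_assoc, ← LinearMap.comp_assoc e, hp, LinearMap.id_comp]
  exact hr

/-- a generator is projective over its endomorphism ring -/
theorem projective_end (h : InAdd B T (ModuleCat.of B B)) :
    Module.Projective (Module.End B T) T := by
  obtain ⟨n, i, p, hp⟩ := h
  let α : T →ₗ[Module.End B T] (Fin n → Module.End B T) :=
    { toFun := fun t j => LinearMap.toSpanSingleton B T t ∘ₗ p ∘ₗ LinearMap.single B (fun _ => T) j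
      map_add' := fun s t => by
        funext j
        ext x
        simp
      map_smul' := fun s t => by
        funext j
        ext x
        simp }
  let β : (Fin n → Module.End B T) →ₗ[Module.End B T] T :=
    ∑ j, LinearMap.toSpanSingleton _ T (i (1 : B) j) ∘ₗ LinearMap.proj j
  refine Module.Projective.of_split α β (LinearMap.ext fun t => ?_)
  have h1 : p (i (1 : B)) = (1 : B) := LinearMap.congr_fun hp (1 : B)
  have h2 : β (α t) = LinearMap.toSpanSingleton B T t
      (p (∑ j, LinearMap.single B (fun _ => T) j (i (1 : B) j))) := by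
    rw [map_sum, map_sum, LinearMap.sum_apply]
    rfl
  have h3 : ∑ j, LinearMap.single B (fun _ => T) j (i (1 : B) j) = i (1 : B) :=
    LinearMap.sum_single_apply (fun _ => T) _
  rw [LinearMap.comp_apply, h2, h3, h1]
  exact one_smul B t

end

section

variable {A M : Type u} [Ring A] [AddCommGroup M] [Module A M]

/-- the endomorphism `x ↦ x.2 • t` of `M × A` -/
def sp : (M × A) →ₗ[Module.End A (M × A)] Module.End A (M × A) where
  toFun t := LinearMap.toSpanSingleton A _ t ∘ₗ LinearMap.snd A M A
  map_add' s t := by
    apply LinearMap.ext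
    intro x
    simp
  map_smul' b t := by
    apply LinearMap.ext
    intro x
    simp

theorem sp_apply (t x : M × A) : sp (A := A) t x = x.2 • t := rfl

theorem sp_split : LinearMap.toSpanSingleton (Module.End A (M × A)) _ ((0, 1) : M × A) ∘ₗ sp =
    LinearMap.id := LinearMap.ext fun t => one_smul A t

theorem bij_A :
    Bijective (Module.toModuleEnd (Module.End A (M × A)) (S := A) (M × A)) := by
  refine ⟨fun a b h => ?_, fun φ => ⟨(φ (0, 1)).2, LinearMap.ext fun t => ?_⟩⟩
  · simpa using congrArg Prod.snd (LinearMap.congr_fun h ((0, 1) : M × A))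
  · have h1 := φ.map_smul (sp (A := A) t) (0, 1)
    change φ ((1 : A) • t) = (φ (0, 1)).2 • t at h1
    rw [one_smul] at h1
    exact h1.symm

theorem waka (h : AR A M) (hp : ¬ Module.Projective A M) :
    Module.Projective (Module.End A (M × A)) (M × A) ∧
      IsWakamatsu (Module.End A (M × A)) (M × A) ∧ ¬ Coresolves (Module.End A (M × A)) (M × A) := by
  have p1 : Module.Projective (Module.End A (M × A)) (M × A) :=
    Module.Projective.of_split _ _ sp_split
  let e := RingEquiv.ofBijective _ (bij_A (A := A) (M := M))
  refine ⟨p1, ⟨?_, fun i hi => ?_, extVanish_congr e (fun _ _ => rfl) fun i => ?_,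
    fun a b h => LinearMap.ext fun x => LinearMap.congr_fun h x, fun ψ => ?_⟩, fun hc => hp ?_⟩
  · exact Module.Finite.of_surjective _ (LinearMap.surjective_of_comp_eq_id _ _ sp_split)
  · obtain ⟨j, rfl⟩ : ∃ j, i = j + 1 := ⟨i - 1, by omega⟩
    exact orthPos_of_projective j
  · have s : SES (LinearMap.inr A M A) (LinearMap.fst A M A) :=
      ⟨LinearMap.inr_injective, Function.Exact.inr_fst, LinearMap.fst_surjective⟩
    refine subsingleton_of_forall_eq 0 fun x => ?_
    obtain ⟨y, rfl⟩ := Dis.exists_of_pull_left (A := ModuleCat.of A A)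
      (B := ModuleCat.of A (M × A)) (C := ModuleCat.of A M) s.exact s.inj s.surj x
      ((orthPos_of_projective (P := A) i).elim _ _)
    rw [show y = 0 from (h (i + 1) (by omega)).elim _ _, Dis.pull_zero]
  · exact ⟨{ toFun := ψ, map_add' := ψ.map_add, map_smul' := fun a t => ψ.map_smul (e a) t },
      rfl⟩
  · have p3 : Module.Projective A (M × A) :=
      proj_congr e (fun _ _ => rfl) (projective_end hc.inAdd)
    exact Module.Projective.of_split (LinearMap.inl A M A) (LinearMap.fst A M A) (by ext; simp)

end

end Vale.Agent.N195
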